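import Vale.Agent.P216.Tight923.T12sat
import Vale.Agent.P216.T695.End

set_option linter.unusedSectionVars false

/-!
# P216, Theorem C (note 13402), section 1: the tight region at `p = 2`

`propT12d`: the equality case of inequality (*) in full:
(a) `u` is injective in the parity `≠ q`; (b) the quotient `F / W` of the parity `q` is torsion
free; (c) a class of parity `q` all of whose localised components are global is global;
(d) a class of parity `≠ q` whose localised components vanish is zero.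

`window`: the component `(a, b)` without critical levels, on the doublings of which equality holds.
-/

open Module LinearMap Set

namespace Vale.Agent.P216.C477

open Vale.Agent.P216.AS (USeq Crit)
open Vale.Agent.P216.T695
open Vale.Agent.P216.B633
open Vale.Agent.P216.Tight923

/-- the equality case at one level -/
structure TightAt {k : Type} [Field k] {Hi Fi H F H' : ℕ → Type}
    [∀ n, AddCommGroup (Hi n)] [∀ n, Module k (Hi n)]
    [∀ n, AddCommGroup (Fi n)] [∀ n, Module k (Fi n)]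
    [∀ n, AddCommGroup (H n)] [∀ n, Module k (H n)]
    [∀ n, AddCommGroup (F n)] [∀ n, Module k (F n)]
    [∀ n, AddCommGroup (H' n)] [∀ n, Module k (H' n)]
    (G : USeq k F H) (L : Loc k F H' G.u)
    (rF : ∀ n, Fi n →ₗ[k] F n) (rH' : ∀ n, Hi n →ₗ[k] H' n) (q : ℕ) : Prop where
  /-- `u` is injective in the parity `≠ q` -/
  inj : ∀ e, e % 2 ≠ q → Function.Injective (G.u e)
  /-- `F / W` is torsion free -/
  sat : ∀ e, e % 2 = q → ∀ x, G.u e x ∈ LinearMap.range (rF (e + 2)) →
    x ∈ LinearMap.range (rF e)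
  /-- a class which is global after localisation is global -/
  loc : ∀ e, e % 2 = q → ∀ x, (∀ j, L.ℓ e j x ∈ LinearMap.range (rH' j)) →
    x ∈ LinearMap.range (rF e)
  /-- the localisation is injective in the parity `≠ q` -/
  loc0 : ∀ e, e % 2 ≠ q → ∀ x, (∀ j, L.ℓ e j x = 0) → x = 0

theorem propT12d (k : Type) [Field k] (Hi Fi H F H' : ℕ → Type)
    [∀ n, AddCommGroup (Hi n)] [∀ n, Module k (Hi n)]
    [∀ n, AddCommGroup (Fi n)] [∀ n, Module k (Fi n)]
    [∀ n, AddCommGroup (H n)] [∀ n, Module k (H n)]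
    [∀ n, AddCommGroup (F n)] [∀ n, Module k (F n)]
    [∀ n, AddCommGroup (H' n)] [∀ n, Module k (H' n)]
    [∀ n, FiniteDimensional k (H n)] [∀ n, FiniteDimensional k (F n)]
    [∀ n, FiniteDimensional k (H' n)]
    (ui : ∀ n, Fi n →ₗ[k] Fi (n + 2)) (πi : ∀ n, Fi n →ₗ[k] Hi n)
    (G : USeq k F H) (L : Loc k F H' G.u)
    (rH : ∀ n, Hi n →ₗ[k] H n) (rF : ∀ n, Fi n →ₗ[k] F n) (rH' : ∀ n, Hi n →ₗ[k] H' n)
    (hu : ∀ n x, rF (n + 2) (ui n x) = G.u n (rF n x))
    (hπ : ∀ n x, G.π n (rF n x) = rH n (πi n x))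
    (hg : ∀ e j x, L.ℓ e j (rF e x) ∈ LinearMap.range (rH' j))
    (hfin : ∃ N, ∀ n ≥ N, Subsingleton (H n)) (hfin' : ∃ N, ∀ n ≥ N, Subsingleton (H' n))
    (q : ℕ) (hq : q < 2) (hsurj : ∀ n, n % 2 = q → Function.Surjective (πi n)) :
    Rinf k rH' q ≤ Rinf k rH q ∧ (Rinf k rH q ≤ Rinf k rH' q → TightAt G L rF rH' q) := by
  obtain ⟨hle, heq⟩ := propT12sat k Hi Fi H F H' ui πi G L rH rF rH' hu hπ hg hfin hfin' q hq hsurj
  refine ⟨hle, fun hR => ?_⟩
  obtain ⟨ha, hb, hsat⟩ := heq hR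
  have htf : ∀ e, e % 2 = q → ∀ x, G.u e x ∈ LinearMap.range (rF (e + 2)) →
      x ∈ LinearMap.range (rF e) := by
    intro e he x hx
    obtain ⟨w, hw, hw'⟩ := hsat e he ⟨hx, x, rfl⟩
    have h2 : x - w ∈ LinearMap.ker (G.u e) := by
      rw [LinearMap.mem_ker, map_sub, hw', sub_self]
    have h3 := Submodule.add_mem _ (hb e he (ker_le_tor G.u e h2)) hw
    rwa [sub_add_cancel] at h3
  obtain ⟨N₀, hN₀⟩ := hfin
  obtain ⟨N₀', hN₀'⟩ := hfin'
  obtain ⟨N₁, hN₁⟩ := L.inj
  obtain ⟨N₂, hN₂⟩ := L.surj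
  let W : ∀ n, Submodule k (F n) := fun n => LinearMap.range (rF n)
  have hW : ∀ n, (W n).map (G.u n) ≤ W (n + 2) := by
    rintro n _ ⟨_, ⟨x, rfl⟩, rfl⟩
    exact ⟨ui n x, hu n x⟩
  have hWπ : ∀ n, n % 2 = q → (W n).map (G.π n) = LinearMap.range (rH n) := by
    intro n hn
    apply le_antisymm
    · rintro _ ⟨_, ⟨x, rfl⟩, rfl⟩
      exact ⟨πi n x, (hπ n x).symm⟩
    · rintro _ ⟨y, rfl⟩
      obtain ⟨x, rfl⟩ := hsurj n hn y
      exact ⟨rF n x, ⟨x, rfl⟩, hπ n x⟩
  -- in high degrees the rank of `W` is maximal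
  have key : ∀ m, N₀ + N₀' + N₁ + N₂ ≤ m →
      ∑ i ∈ Finset.range (m + 1), finrank k (LinearMap.range (rH' (q + 2 * i))) ≤
        finrank k (LinearMap.range (rF (q + 2 * m))) := by
    intro m hm
    have e1 : Rinf k rH q = ∑ i ∈ Finset.range (m + 1),
        (finrank k (H (q + 2 * i)) - finrank k (LinearMap.range (rH (q + 2 * i)))) := by
      refine finsum_parity q hq
        (fun n => finrank k (H n) - finrank k (LinearMap.range (rH n))) N₀ (m + 1) ?_ (by omega)
      intro n hn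
      have := hN₀ n hn
      change finrank k (H n) - _ = 0
      rw [finrank_zero_of_subsingleton, Nat.zero_sub]
    have e2 : Rinf k rH' q = ∑ i ∈ Finset.range (m + 1),
        (finrank k (H' (q + 2 * i)) - finrank k (LinearMap.range (rH' (q + 2 * i)))) := by
      refine finsum_parity q hq
        (fun n => finrank k (H' n) - finrank k (LinearMap.range (rH' n))) N₀' (m + 1) ?_
        (by omega)
      intro n hn
      have := hN₀' n hn
      change finrank k (H' n) - _ = 0
      rw [finrank_zero_of_subsingleton, Nat.zero_sub]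
    have e3 := sum_tsub_add (m := m + 1) (a := fun i => finrank k (H (q + 2 * i)))
      (b := fun i => finrank k (LinearMap.range (rH (q + 2 * i))))
      fun n => Submodule.finrank_le _
    have e4 := sum_tsub_add (m := m + 1) (a := fun i => finrank k (H' (q + 2 * i)))
      (b := fun i => finrank k (LinearMap.range (rH' (q + 2 * i))))
      fun n => Submodule.finrank_le _
    have e5 := sum_h G q hq m
    have e6 := sum_a G q hq W hW m
    have e7 : ∑ i ∈ Finset.range (m + 1), finrank k ((W (q + 2 * i)).map (G.π (q + 2 * i))) =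
        ∑ i ∈ Finset.range (m + 1), finrank k (LinearMap.range (rH (q + 2 * i))) :=
      Finset.sum_congr rfl fun i _ => by rw [hWπ _ (by omega)]
    have e8 := finrank_loc L hq (m := m + 1) (e := q + 2 * m) hN₁ hN₂ hN₀' (by omega)
      (by omega) (by omega) (by omega)
    have e10 : finrank k (W (q + 2 * m)) = finrank k (LinearMap.range (rF (q + 2 * m))) := rfl
    rw [e7, e10] at e6
    rw [e8] at e5
    rw [e1, e2] at hR
    omega
  have hbase : ∀ m, N₀ + N₀' + N₁ + N₂ ≤ m → ∀ x : F (q + 2 * m),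
      (∀ j, L.ℓ (q + 2 * m) j x ∈ LinearMap.range (rH' j)) →
      x ∈ LinearMap.range (rF (q + 2 * m)) := by
    intro m hm x hx
    let Φ : LinearMap.range (rF (q + 2 * m)) →ₗ[k]
        (∀ i : Fin (m + 1), LinearMap.range (rH' (q + 2 * (i : ℕ)))) :=
      LinearMap.pi fun i => LinearMap.codRestrict _
        ((L.ℓ (q + 2 * m) (q + 2 * i)).comp (LinearMap.range (rF (q + 2 * m))).subtype) (by
          rintro ⟨_, x, rfl⟩
          exact hg _ _ x)
    have hinj : Function.Injective Φ := by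
      rw [injective_iff_map_eq_zero]
      intro x hx
      apply Subtype.ext
      refine loc_ext L (q := q) (m := m + 1) hN₁ hN₀' (by omega) (by omega) (by omega) x.1
        fun i hi => ?_
      exact congrArg Subtype.val (congrFun hx ⟨i, hi⟩)
    have hfr : finrank k (LinearMap.range (rF (q + 2 * m))) =
        finrank k (∀ i : Fin (m + 1), LinearMap.range (rH' (q + 2 * (i : ℕ)))) := by
      apply le_antisymm (LinearMap.finrank_le_finrank_of_injective hinj)
      rw [Module.finrank_pi_fintype]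
      have h1 := key m hm
      rw [Finset.sum_range] at h1
      exact h1
    obtain ⟨w, hw⟩ := (LinearMap.injective_iff_surjective_of_finrank_eq_finrank hfr).1 hinj
      fun i => ⟨L.ℓ (q + 2 * m) (q + 2 * i) x, hx _⟩
    have hxw : x - w.1 = 0 := by
      refine loc_ext L (q := q) (m := m + 1) hN₁ hN₀' (by omega) (by omega) (by omega) (x - w.1)
        fun i hi => ?_
      have h1 := congrArg Subtype.val (congrFun hw ⟨i, hi⟩)
      change L.ℓ (q + 2 * m) (q + 2 * i) w.1 = L.ℓ (q + 2 * m) (q + 2 * i) x at h1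
      rw [map_sub, h1, sub_self]
    rw [sub_eq_zero.1 hxw]
    exact w.2
  have hloc : ∀ d e, e % 2 = q → q + 2 * (N₀ + N₀' + N₁ + N₂) ≤ e + 2 * d → ∀ x : F e,
      (∀ j, L.ℓ e j x ∈ LinearMap.range (rH' j)) → x ∈ LinearMap.range (rF e) := by
    intro d
    induction d with
    | zero =>
      intro e he hd x hx
      obtain ⟨m, rfl⟩ : ∃ m, e = q + 2 * m := ⟨(e - q) / 2, by omega⟩
      exact hbase m (by omega) x hx
    | succ d ih =>
      intro e he hd x hx
      apply htf e he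
      refine ih (e + 2) (by omega) (by omega) _ fun j => ?_
      rw [L.ℓ_u]
      exact hx j
  refine ⟨?_, htf, ?_, ?_⟩
  · intro e he
    rw [injective_iff_map_eq_zero]
    intro x hx
    exact ha e he x (ker_le_tor G.u e hx)
  · intro e he x hx
    exact hloc (q + 2 * (N₀ + N₀' + N₁ + N₂)) e he (by omega) x hx
  · intro e he x hx
    exact ha e he x ((mem_tor_iff L).2 hx)

/-- **The window.** `R` is bounded, does not decrease under doubling and is constant on
intervals without critical levels. -/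
theorem window {crit : Set ℝ} (hf : ∀ t, (crit ∩ Iic t).Finite)
    (hc : ∀ t, t ∉ crit → t / 2 ∉ crit) {R : ℝ → ℕ} {K : ℕ}
    (hK : ∀ t, 0 < t → t ∉ crit → R t ≤ K)
    (hR : ∀ t, 0 < t → t ∉ crit → R (t / 2) ≤ R t)
    (hconst : ∀ s t, 0 < s → s ≤ t → (∀ x ∈ Icc s t, x ∉ crit) → R s = R t) :
    ∃ a b : ℝ, 0 < a ∧ a < b ∧ (∀ x ∈ Ioo a b, x ∉ crit) ∧
      ∀ i : ℕ, ∀ t ∈ Ioo (2 ^ (i + 1) * a) (2 ^ (i + 1) * b), t ∉ crit → R t ≤ R (t / 2) := by
  classical
  -- a regular level with maximal `R`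
  let V : Set ℕ := {r | ∃ t, 0 < t ∧ t ∉ crit ∧ R t = r}
  have hVb : ∀ r ∈ V, r ≤ K := by
    rintro r ⟨t, ht, htc, rfl⟩
    exact hK t ht htc
  have hVne : V.Nonempty := by
    obtain ⟨t, ht, htc⟩ := exists_reg hf (show (0 : ℝ) < 1 by norm_num)
    exact ⟨R t, t, ht.1, htc, rfl⟩
  have hVbdd : BddAbove V := ⟨K, hVb⟩
  obtain ⟨t₀, ht₀, ht₀c, ht₀R⟩ : sSup V ∈ V := Nat.sSup_mem hVne hVbdd
  have hmax : ∀ t, 0 < t → t ∉ crit → R t ≤ R t₀ := by
    intro t ht htc
    rw [ht₀R]
    exact le_csSup hVbdd ⟨t, ht, htc, rfl⟩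
  -- an interval without critical levels
  have hopen : ∃ ε > 0, ∀ x ∈ Icc (t₀ - ε) (t₀ + ε), x ∉ crit := by
    have hcl : IsClosed (crit ∩ Iic (t₀ + 1)) := (hf (t₀ + 1)).isClosed
    have hmem : t₀ ∈ (crit ∩ Iic (t₀ + 1))ᶜ := fun h => ht₀c h.1
    obtain ⟨ε, hε, hball⟩ := Metric.isOpen_iff.1 hcl.isOpen_compl t₀ hmem
    refine ⟨min (ε / 2) 1, by positivity, fun x hx hxc => ?_⟩
    have h1 : |x - t₀| ≤ min (ε / 2) 1 := by
      rw [abs_le]
      constructor
      · linarith [hx.1]
      · linarith [hx.2]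
    have h2 : x ∈ Metric.ball t₀ ε := by
      rw [Metric.mem_ball, Real.dist_eq]
      have := min_le_left (ε / 2) 1
      linarith
    refine hball h2 ⟨hxc, ?_⟩
    have := min_le_right (ε / 2) (1 : ℝ)
    have h3 := hx.2
    change x ≤ t₀ + 1
    linarith
  obtain ⟨ε, hε, hfree⟩ := hopen
  set a := max (t₀ - ε) (t₀ / 2) with ha
  have ha0 : 0 < a := lt_of_lt_of_le (by positivity) (le_max_right _ _)
  have hat : a < t₀ := max_lt (by linarith) (by linarith)
  have haε : t₀ - ε ≤ a := le_max_left _ _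
  have hR0 : ∀ t ∈ Ioo a (t₀ + ε), R t = R t₀ := by
    intro t ht
    rcases le_total t t₀ with h | h
    · exact hconst t t₀ (ha0.trans ht.1) h fun x hx => hfree x ⟨by linarith [hx.1, ht.1],
        by linarith [hx.2]⟩
    · exact (hconst t₀ t ht₀ h fun x hx => hfree x ⟨by linarith [hx.1],
        by linarith [hx.2, ht.2]⟩).symm
  have hRi : ∀ i : ℕ, ∀ t ∈ Ioo (2 ^ i * a) (2 ^ i * (t₀ + ε)), t ∉ crit → R t₀ ≤ R t := by
    intro i
    induction i with
    | zero =>
      intro t ht htc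
      rw [pow_zero, one_mul, one_mul] at ht
      exact (hR0 t ht).ge
    | succ i ih =>
      intro t ht htc
      have h1 : t / 2 ∈ Ioo (2 ^ i * a) (2 ^ i * (t₀ + ε)) := by
        rw [pow_succ] at ht
        constructor
        · linarith [ht.1]
        · linarith [ht.2]
      have h2 : 0 < t := lt_trans (by positivity) ht.1
      exact (ih (t / 2) h1 (hc t htc)).trans (hR t h2 htc)
  refine ⟨a, t₀ + ε, ha0, by linarith, fun x hx => hfree x ⟨by linarith [hx.1], hx.2.le⟩, ?_⟩
  intro i t ht htc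
  have h1 : t / 2 ∈ Ioo (2 ^ i * a) (2 ^ i * (t₀ + ε)) := by
    rw [pow_succ] at ht
    constructor
    · linarith [ht.1]
    · linarith [ht.2]
  have h2 : 0 < t := lt_trans (by positivity) ht.1
  exact (hmax t h2 htc).trans (hRi i (t / 2) h1 (hc t htc))

/-- half of a regular level is regular -/
theorem crit_half {ι : Type} {ℓ : ι → ℝ} {t : ℝ} (h : t ∉ Crit ℓ) : t / 2 ∉ Crit ℓ := by
  rintro ⟨i, m, hm, hmt⟩
  refine h ⟨i, 2 * m, by omega, ?_⟩
  push_cast
  linarith

end Vale.Agent.P216.C477
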